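import Vale.Agent.P181.O2.Cnt

set_option autoImplicit false

namespace Vale.Agent.P181.O2.H564

open Vale.Agent.P181.O2

lemma card_le_sum (U : Multiset (ℕ × ℕ)) (h0 : ((0 : ℕ), (0 : ℕ)) ∉ U) :
    Multiset.card U ≤ (U.map Prod.fst).sum + (U.map Prod.snd).sum := by
  induction U using Multiset.induction_on with
  | empty => simp
  | cons p U ih =>
    rw [Multiset.mem_cons, not_or] at h0
    have h1 := ih h0.2
    rw [Multiset.card_cons, Multiset.map_cons, Multiset.map_cons, Multiset.sum_cons,
      Multiset.sum_cons]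
    have h2 : 1 ≤ p.1 + p.2 := by
      by_contra h
      apply h0.1
      ext <;> simp only <;> omega
    omega

lemma fst_le_sum {U : Multiset (ℕ × ℕ)} {p : ℕ × ℕ} (h : p ∈ U) : p.1 ≤ (U.map Prod.fst).sum :=
  Multiset.single_le_sum (fun _ _ => Nat.zero_le _) _ (Multiset.mem_map_of_mem _ h)

lemma snd_le_sum {U : Multiset (ℕ × ℕ)} {p : ℕ × ℕ} (h : p ∈ U) : p.2 ≤ (U.map Prod.snd).sum :=
  Multiset.single_le_sum (fun _ _ => Nat.zero_le _) _ (Multiset.mem_map_of_mem _ h)

theorem mem_US {N t : ℕ} {U : Multiset (ℕ × ℕ)} :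
    U ∈ US N t ↔ (0, 0) ∉ U ∧ (U.map Prod.fst).sum = N ∧ (U.map Prod.snd).sum = t := by
  classical
  unfold US
  rw [Finset.mem_filter]
  constructor
  · exact fun h => h.2
  · rintro ⟨h0, h1, h2⟩
    refine ⟨?_, h0, h1, h2⟩
    rw [Multiset.mem_toFinset, Multiset.mem_powerset, Multiset.le_iff_count]
    intro p
    rw [Multiset.count_nsmul]
    by_cases hp : p ∈ U
    · have h3 : 1 ≤ Multiset.count p (Finset.range (N + 1) ×ˢ Finset.range (t + 1)).val := by
        rw [Multiset.one_le_count_iff_mem, Finset.mem_val, Finset.mem_product, Finset.mem_range,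
          Finset.mem_range]
        have := fst_le_sum hp
        have := snd_le_sum hp
        omega
      have h4 : Multiset.count p U ≤ N + t := by
        have := Multiset.count_le_card p U
        have := card_le_sum U h0
        omega
      calc Multiset.count p U ≤ N + t := h4
        _ = (N + t) * 1 := (mul_one _).symm
        _ ≤ _ := Nat.mul_le_mul_left _ h3
    · rw [Multiset.count_eq_zero_of_notMem hp]
      exact Nat.zero_le _

end Vale.Agent.P181.O2.H564
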