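import Vale.Agent.P181.O2.Cnt
import Vale.Agent.P181.O2.H564.Mem

set_option autoImplicit false

namespace Vale.Agent.P181.O2.H564

open Vale.Agent.P181.O2
open Vale.Agent.P181.SZ (nn PT tl)

lemma mem_PT {w : ℕ} {k : Multiset ℕ} : k ∈ PT w ↔ k.sum = w ∧ ∀ x ∈ k, 2 ≤ x := by
  classical
  unfold PT
  rw [Finset.mem_filter, Finset.mem_image]
  constructor
  · rintro ⟨⟨p, -, rfl⟩, h⟩
    exact ⟨p.parts_sum, h⟩
  · rintro ⟨h1, h2⟩
    exact ⟨⟨⟨k, fun {i} hi => lt_of_lt_of_le (by omega) (h2 i hi), h1⟩, Finset.mem_univ _, rfl⟩, h2⟩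

lemma sum_szs (U : Multiset (ℕ × ℕ)) :
    (szs U).sum = (U.map Prod.fst).sum + (U.map Prod.snd).sum := by
  show (U.map fun p => p.1 + p.2).sum = _
  exact Multiset.sum_map_add

open scoped Classical in
/-- **The counting half**: the hypothesis of `Red` with `h = 60 q`. -/
theorem errGain (hU : ProdUp) (hL : ProdLow) (hC : CountC) (m : ℕ) (mu : Fin (m + 2) → ℕ)
    (h2 : 2 ≤ mu 1) (a q t w z j : ℕ) (ht : t = ∑ i, tl mu i) (hq : 10 ≤ q) (htq : t ≤ q)
    (hqa : 1000 * q ≤ a) (hw : w = ∑ i, mu i) (haw : 2 * a ≤ w) (hz : 256 * w ≤ z ^ 2)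
    (hjz : j * z ≤ 9 * q) (h5 : 12 * (w + 2) ^ 14 ≤ 5 ^ j) :
    ∑ K ∈ (PT w).filter (ErrK (60 * q) a), nn (m + 2) mu K ≤
      ∑ k ∈ (PT (w - (a + 2))).filter (Good (60 * q)), n2 (m + 2) a mu k := by
  have hw' : w = mu 0 + t := by
    rw [hw, ht, Fin.sum_univ_succ]
    rfl
  have h2' : 2 ≤ tl mu 0 := h2
  have ht2 : 2 ≤ t := by
    rw [ht]
    exact h2'.trans (Finset.single_le_sum (f := tl mu) (fun _ _ => Nat.zero_le _)
      (Finset.mem_univ 0))
  have key := hC m (tl mu) h2' a q t (mu 0) w z j ht hq htq hqa hw' haw hz hjz h5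
  have up : ∑ K ∈ (PT w).filter (ErrK (60 * q) a), nn (m + 2) mu K ≤
      ∑ U ∈ (US (mu 0) t).filter (fun U => ErrK (60 * q) a (szs U)), cc (m + 1) (tl mu) U := by
    calc ∑ K ∈ (PT w).filter (ErrK (60 * q) a), nn (m + 2) mu K
        ≤ ∑ K ∈ (PT w).filter (ErrK (60 * q) a),
            ∑ U ∈ (US (mu 0) t).filter (fun U => szs U = K), cc (m + 1) (tl mu) U := by
          apply Finset.sum_le_sum
          intro K hK
          rw [Finset.mem_filter, mem_PT] at hK
          have := hU (m + 1) mu K (fun x hx => by have := hK.1.2 x hx; omega)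
          rw [← ht] at this
          exact this
      _ = ∑ K ∈ (PT w).filter (ErrK (60 * q) a),
            ∑ U ∈ ((US (mu 0) t).filter (fun U => szs U ∈ (PT w).filter (ErrK (60 * q) a))).filter
              (fun U => szs U = K), cc (m + 1) (tl mu) U := by
          apply Finset.sum_congr rfl
          intro K hK
          apply Finset.sum_congr _ fun _ _ => rfl
          ext U
          simp only [Finset.mem_filter]
          constructor
          · rintro ⟨h1, h3⟩
            rw [h3]
            rw [Finset.mem_filter] at hK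
            exact ⟨⟨h1, hK⟩, rfl⟩
          · rintro ⟨⟨h1, -⟩, h3⟩
            exact ⟨h1, h3⟩
      _ = ∑ U ∈ (US (mu 0) t).filter (fun U => szs U ∈ (PT w).filter (ErrK (60 * q) a)),
            cc (m + 1) (tl mu) U :=
          Finset.sum_fiberwise_of_maps_to (fun U hU => (Finset.mem_filter.1 hU).2) _
      _ ≤ _ := by
          apply Finset.sum_le_sum_of_subset
          intro U hU
          rw [Finset.mem_filter, Finset.mem_filter] at hU
          rw [Finset.mem_filter]
          exact ⟨hU.1, hU.2.2⟩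
  have low : ∑ U ∈ (US (mu 0 - a) (t - 2)).filter (fun U => GoodK (60 * q) (szs U)),
      cc2 (m + 1) (tl mu) U ≤
      ∑ k ∈ (PT (w - (a + 2))).filter (Good (60 * q)), n2 (m + 2) a mu k := by
    calc ∑ U ∈ (US (mu 0 - a) (t - 2)).filter (fun U => GoodK (60 * q) (szs U)),
          cc2 (m + 1) (tl mu) U
        = ∑ k ∈ (PT (w - (a + 2))).filter (Good (60 * q)),
            ∑ U ∈ ((US (mu 0 - a) (t - 2)).filter (fun U => GoodK (60 * q) (szs U))).filter
              (fun U => szs U = k), cc2 (m + 1) (tl mu) U := by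
          symm
          apply Finset.sum_fiberwise_of_maps_to
          intro U hU
          rw [Finset.mem_filter, mem_US] at hU
          rw [Finset.mem_filter, mem_PT, sum_szs]
          refine ⟨⟨?_, hU.2.2⟩, hU.2.1⟩
          rw [hU.1.2.1, hU.1.2.2]
          omega
      _ ≤ _ := by
          apply Finset.sum_le_sum
          intro k hk
          rw [Finset.mem_filter, mem_PT] at hk
          have h3 := hL (m + 1) a mu k (by rw [← ht]; exact ht2) (by rw [← ht]; omega)
            (by omega) (fun x hx => by have := hk.1.2 x hx; omega)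
          rw [← ht] at h3
          refine le_trans ?_ h3
          apply Finset.sum_le_sum_of_subset
          intro U hU
          rw [Finset.mem_filter, Finset.mem_filter] at hU
          rw [Finset.mem_filter]
          exact ⟨hU.1.1, hU.2⟩
  exact up.trans (key.trans low)

end Vale.Agent.P181.O2.H564
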