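import Vale.Agent.P181.O2.Cnt
import Vale.Agent.P181.O2.H564.Mem
import Vale.Agent.P181.O2.H357.Growth

set_option autoImplicit false

namespace Vale.Agent.P181.O2.H564

open Vale.Agent.P181.O2
open Vale.Agent.P181.SZ (nn PT tl)

/-- Growth on the states `US`. -/
theorem growthU {c : Multiset (ℕ × ℕ) → ℕ} (hc : PlainW c) (t : ℕ) {w z : ℕ} (hw : 2 ≤ w)
    (hz : 256 * w ≤ z ^ 2) (j : ℕ) {M N : ℕ} (hMN : M + j * z ≤ N) (hN : N ≤ w) :
    5 ^ j * ∑ U ∈ US M t, c U ≤ ∑ U ∈ US N t, c U := by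
  refine H357.growth_iter (P := fun U => (0, 0) ∉ U ∧ (U.map Prod.snd).sum = t)
    (S := fun N => US N t) (cc := c) ?_ ?_ ?_ hc hw hz j hMN hN
  · intro N U
    rw [mem_US]
    tauto
  · exact fun U h => h.1
  · rintro y U hy ⟨h0, h1⟩
    refine ⟨?_, ?_⟩
    · rw [Multiset.mem_cons, not_or]
      refine ⟨fun h => ?_, h0⟩
      have := congrArg Prod.fst h
      simp only at this
      omega
    · rw [Multiset.map_cons, Multiset.sum_cons, h1]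
      simp only
      omega

theorem countC (hP : PlainC) (hF : FreshC) (hS : ShiftC) (hW4 : PullC) (hE : ErrC) (hH : HalfC)
    (hG : GainC) : CountC := by
  classical
  intro m tau h2 a q t m0 w z j ht hq htq hqa hw haw hz hjz h5
  have ht2 : 2 ≤ t := by
    rw [ht]
    exact h2.trans (Finset.single_le_sum (f := tau) (fun _ _ => Nat.zero_le _) (Finset.mem_univ 0))
  obtain ⟨N, hN⟩ : ∃ N, m0 = N + a + 56 * q := ⟨m0 - a - 56 * q, by omega⟩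
  have e1 := hE (cc (m + 1) tau) (hP (m + 1) tau).1 (hF (m + 1) tau) a q t m0 N w (by omega) htq
    hqa hN hw
  have e2 := growthU (hP (m + 1) tau).1 t (by omega : 2 ≤ w) hz j
    (M := N) (N := N + 36 * q) (by omega) (by omega)
  have h6 : 6 * (w + 1) ^ 3 ≤ 5 ^ j := by
    refine le_trans ?_ h5
    have h7 : (w + 1) ^ 3 ≤ (w + 2) ^ 3 := Nat.pow_le_pow_left (by omega) 3
    have h8 : (w + 2) ^ 3 ≤ (w + 2) ^ 14 := Nat.pow_le_pow_right (by omega) (by omega)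
    omega
  have e3 := hH (cc (m + 1) tau) (hP (m + 1) tau).1 (hF (m + 1) tau) q t (N + 36 * q) w z j
    (by omega) htq (by omega) (by omega) hz hjz h6
  have e4 := hG (cc (m + 1) tau) (cc2 (m + 1) tau) (hW4 m tau h2) (hP (m + 1) tau).2
    (hS (m + 1) tau) a q t (N + 36 * q) w ht2 htq hq hqa (by omega) (by omega)
  have h9 : N + 36 * q + 20 * q = m0 - a := by omega
  rw [h9] at e4
  obtain ⟨E, hEd⟩ : ∃ E, E = ∑ U ∈ (US m0 t).filter (fun U => ErrK (60 * q) a (szs U)),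
    cc (m + 1) tau U := ⟨_, rfl⟩
  obtain ⟨G, hGd⟩ : ∃ G, G = ∑ U ∈ (US (m0 - a) (t - 2)).filter (fun U => GoodK (60 * q) (szs U)),
    cc2 (m + 1) tau U := ⟨_, rfl⟩
  obtain ⟨A, hA⟩ : ∃ A, A = ∑ U ∈ US N t, cc (m + 1) tau U := ⟨_, rfl⟩
  obtain ⟨A', hA'⟩ : ∃ A', A' = ∑ U ∈ US (N + 36 * q) t, cc (m + 1) tau U := ⟨_, rfl⟩
  obtain ⟨B, hB⟩ : ∃ B, B = ∑ U ∈ (US (N + 36 * q) t).filter (SmallU q), cc (m + 1) tau U :=
    ⟨_, rfl⟩
  rw [← hEd, ← hA] at e1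
  rw [← hA, ← hA'] at e2
  rw [← hA', ← hB] at e3
  rw [← hB, ← hGd] at e4
  rw [← hEd, ← hGd]
  -- 5^j E ≤ 6 (w+1)^6 5^j A ≤ 6 (w+1)^6 A' ≤ 12 (w+1)^6 B ≤ 12 (w+2)^14 G ≤ 5^j G
  have h10 : 5 ^ j * E ≤ 5 ^ j * G := by
    calc 5 ^ j * E ≤ 5 ^ j * (6 * (w + 1) ^ 6 * A) := Nat.mul_le_mul_left _ e1
      _ = 6 * (w + 1) ^ 6 * (5 ^ j * A) := by ring
      _ ≤ 6 * (w + 1) ^ 6 * A' := Nat.mul_le_mul_left _ e2
      _ ≤ 6 * (w + 1) ^ 6 * (2 * B) := Nat.mul_le_mul_left _ e3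
      _ ≤ 6 * (w + 1) ^ 6 * (2 * ((w + 2) ^ 8 * G)) :=
        Nat.mul_le_mul_left _ (Nat.mul_le_mul_left _ e4)
      _ ≤ 6 * (w + 2) ^ 6 * (2 * ((w + 2) ^ 8 * G)) :=
        Nat.mul_le_mul_right _ (Nat.mul_le_mul_left _ (Nat.pow_le_pow_left (by omega) 6))
      _ = 12 * (w + 2) ^ 14 * G := by ring
      _ ≤ 5 ^ j * G := Nat.mul_le_mul_right _ h5
  exact Nat.le_of_mul_le_mul_left h10 (by positivity)

end Vale.Agent.P181.O2.H564
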