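import Vale.Agent.P181.O2.H564.CntS
import Vale.Agent.P181.O2.H564.Count
import Vale.Agent.P181.O2.H43.T
import Vale.Agent.P181.O2.H696.W123
import Vale.Agent.P181.O2.H563.W4c
import Vale.Agent.P181.O2.H266.Err
import Vale.Agent.P181.O2.H357.Half
import Vale.Agent.P181.O2.H99.Gain
import Vale.Agent.P181.O2.H752.Up

set_option autoImplicit false

namespace Vale.Agent.P181.O2.H564

open Vale.Agent.P181.O2
open Vale.Agent.P181.SZ (nn PT tl)

/-- **(Z)**, closed. -/
theorem countClosed : CountC :=
  countC (H696.plain H43.transL) (H696.fresh H43.transL) (H696.shift H43.transL)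
    (H563.pullC H43.transL) H266.err H357.halfC H99.gainC

/-- **(B1)**, closed. -/
theorem prodUpClosed : ProdUp := H752.prodUp

end Vale.Agent.P181.O2.H564
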