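import Vale.Agent.P181.O2.Cnt
import Vale.Agent.P181.O2.H564.Bridge

set_option autoImplicit false

namespace Vale.Agent.P181.O2.H564

open Vale.Agent.P181.O2
open Vale.Agent.P181.SZ (nn PT tl)

open scoped Classical in
/-- helper104's `CntS 16 20000`. -/
theorem cntS (hU : ProdUp) (hL : ProdLow) (hC : CountC) (a m w D K : ℕ) (mu : Fin (m + 2) → ℕ)
    (_hmu : Antitone mu) (hw : ∑ i, mu i = w) (hD : ∑ i : Fin (m + 1), mu i.succ = D)
    (h2 : 2 ≤ mu 1) (haw : 2 * a ≤ w) (hQD : 20000 * D ≤ a) (_hK : 1 ≤ K)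
    (h5 : (w + 2) ^ 16 ≤ 5 ^ K) (hQK : 20000 * K * (Nat.sqrt w + 1) ≤ a) :
    ∃ h, 10 * h ≤ a ∧ 100 ≤ a ∧ ∑ K ∈ (PT w).filter (ErrK h a), nn (m + 2) mu K ≤
      ∑ k ∈ (PT (w - (a + 2))).filter (Good h), n2 (m + 2) a mu k := by
  have hD2 : 2 ≤ D := by
    rw [← hD]
    exact h2.trans (Finset.single_le_sum (f := fun i : Fin (m + 1) => mu i.succ)
      (fun _ _ => Nat.zero_le _) (Finset.mem_univ 0))
  obtain ⟨q, hq⟩ : ∃ q, q = a / 1000 := ⟨_, rfl⟩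
  have hz : 256 * w ≤ (16 * (Nat.sqrt w + 1)) ^ 2 := by
    have h1 := Nat.sqrt_le_add w
    nlinarith
  have hjz : K * (16 * (Nat.sqrt w + 1)) ≤ 9 * q := by
    have h1 : 20000 * (K * (Nat.sqrt w + 1)) ≤ a := by
      calc 20000 * (K * (Nat.sqrt w + 1)) = 20000 * K * (Nat.sqrt w + 1) := by ring
        _ ≤ a := hQK
    have h3 : K * (16 * (Nat.sqrt w + 1)) = 16 * (K * (Nat.sqrt w + 1)) := by ring
    rw [h3]
    omega
  have h14 : 12 * (w + 2) ^ 14 ≤ 5 ^ K := by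
    refine le_trans ?_ h5
    have h1 : (w + 2) ^ 16 = (w + 2) ^ 2 * (w + 2) ^ 14 := by ring
    rw [h1]
    apply Nat.mul_le_mul_right
    nlinarith
  refine ⟨60 * q, by omega, by omega, ?_⟩
  refine errGain hU hL hC m mu h2 a q D w (16 * (Nat.sqrt w + 1)) K ?_ (by omega) (by omega)
    (by omega) hw.symm haw hz hjz h14
  rw [← hD]
  rfl

end Vale.Agent.P181.O2.H564
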