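import Vale.Agent.P181.O2.H564.Small
import Vale.Agent.P181.O2.H457.Fin

set_option autoImplicit false

namespace Vale.Agent.P181.O2.H564

open Vale.Agent.P181.O2

/-- Foulkes' inequality for all `a ≤ b` and all `λ` with
`C (1 + log a) ^ c * (λ_2 + λ_3 + ⋯) ≤ b ^ 2`. -/
theorem uniAllc : Vale.Agent.P181.DX.H556.UniAll := H457.uniAllc_of_small2 small2c

end Vale.Agent.P181.O2.H564
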