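import Vale.Agent.P181.O2.H564.Closed
import Vale.Agent.P181.O2.H564.RedC
import Vale.Agent.P181.O2.H104.Fin

set_option autoImplicit false

namespace Vale.Agent.P181.O2.H564

open Vale.Agent.P181.O2

/-- **LINE O2** from its two last inputs. -/
theorem small2_of (h4 : A4) (hL : ProdLow) : H457.Small2 :=
  H104.small2_fin (c := 16) (Q := 20000) (by norm_num) (by norm_num) (redc h4)
    (fun a m w D K mu h1 h2 h3 h4' h5 h6 h7 h8 h9 =>
      cntS prodUpClosed hL countClosed a m w D K mu h1 h2 h3 h4' h5 h6 h7 h8 h9)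

end Vale.Agent.P181.O2.H564
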