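import Vale.Agent.P181.O2.H564.Plug
import Vale.Agent.P181.O2.H137.A4
import Vale.Agent.P181.O2.H556.Low

set_option autoImplicit false

namespace Vale.Agent.P181.O2.H564

open Vale.Agent.P181.O2

/-- **LINE O2**, closed: few cells below row two. -/
theorem small2c : H457.Small2 := small2_of H137.a4 H556.prodLow

end Vale.Agent.P181.O2.H564
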